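import Vale.Agent.P300.H142.Kap
import Mathlib.Analysis.Complex.Basic
import Mathlib.Analysis.Analytic.Constructions
import Mathlib.Analysis.Calculus.FDeriv.Analytic
import Mathlib.Tactic

/-!
# P300: the fifteen node charts `H142.kap` (and the extra chart `kapX`) are bijections `W → U`,
analytic both ways (helper210)
-/

open Set Complex

set_option linter.unusedSimpArgs false
set_option linter.unreachableTactic false
set_option linter.unusedTactic false
set_option linter.unnecessarySeqFocus false

namespace Vale.Agent.P300.Spec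

open Vale.Agent.P300.H142

/-- The inverse of `kapX`. -/
noncomputable def kapXInv (q : ℂ × ℂ) : ℂ × ℂ := ((q.2) / (q.1), ((1 - q.1)) / ((1 - q.2)))

/-- The inverse of `kap`: `(u, v)` as a function of `(x, l)`. -/
noncomputable def kapInv : Fin 15 → ℂ × ℂ → ℂ × ℂ
  | 0, q => (q.2, ((-((1 - q.1)))) / ((q.1 - q.2)))
  | 1, q => (q.2, (1) / (q.1))
  | 2, q => ((q.1 * (1 - q.2)) / ((q.1 - q.2)), (1) / (q.1))
  | 3, q => ((q.1 * (1 - q.2)) / ((q.1 - q.2)), ((q.1 - q.2)) / (q.1))
  | 4, q => (((-((1 - q.1)))) / ((q.1 - q.2)), ((q.1 - q.2)) / (q.1))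
  | 5, q => ((q.2) / (q.1), q.1)
  | 6, q => (((q.1 - q.2)) / (q.1 * (1 - q.2)), q.1)
  | 7, q => (((q.1 - q.2)) / (q.1 * (1 - q.2)), (1 - q.2))
  | 8, q => ((q.1) / (q.2), ((1 - q.2)) / ((1 - q.1)))
  | 9, q => ((q.1) / (q.2), q.2)
  | 10, q => (((-((q.1 - q.2)))) / ((1 - q.1)), (1) / (q.2))
  | 11, q => ((q.2) / (q.1), (1) / (q.2))
  | 12, q => ((q.1) / (q.2), (1) / (q.1))
  | 13, q => ((q.2 * (1 - q.1)) / (q.1 * (1 - q.2)), (q.1) / (q.2))
  | 14, q => (q.1, (1) / (q.2))

lemma mem_U' {x l : ℂ} (h1 : x ≠ 0) (h2 : l ≠ 0) (h3 : x - 1 ≠ 0) (h4 : l - 1 ≠ 0)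
    (h5 : x - l ≠ 0) : (x, l) ∈ U :=
  ⟨h1, sub_ne_zero.1 h3, h2, sub_ne_zero.1 h4, sub_ne_zero.1 h5⟩

lemma mem_W' {u v : ℂ} (h1 : u ≠ 0) (h2 : v ≠ 0) (h3 : 1 - u ≠ 0) (h4 : 1 - v ≠ 0)
    (h5 : 1 - u * v ≠ 0) : (u, v) ∈ W :=
  ⟨h1, h2, (sub_ne_zero.1 h3).symm, (sub_ne_zero.1 h4).symm, (sub_ne_zero.1 h5).symm⟩

theorem kap_mem (ν : Fin 15) {w : ℂ × ℂ} (hw : w ∈ W) : kap ν w ∈ U := by
  obtain ⟨u, v⟩ := w
  obtain ⟨h1, h2, h3, h4, h5⟩ := hw
  simp only at h1 h2 h3 h4 h5
  have a1 : 1 - u ≠ 0 := sub_ne_zero.2 (Ne.symm h3)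
  have a2 : 1 - v ≠ 0 := sub_ne_zero.2 (Ne.symm h4)
  have a3 : 1 - u * v ≠ 0 := sub_ne_zero.2 (Ne.symm h5)
  have a4 : 1 - v * u ≠ 0 := by rwa [mul_comm v u]
  fin_cases ν
  · show ((1 - u * v) / (1 - v), u) ∈ U
    refine mem_U' ?_ ?_ ?_ ?_ ?_
    · have e : (1 - u * v) / (1 - v) = ((1 - u * v)) / ((1 - v)) := by first | ring1 | (field_simp; done) | (field_simp; ring1)
      rw [e]; exact (div_ne_zero a3 a2)
    · have e : u = u := by first | ring1 | (field_simp; done) | (field_simp; ring1)
      rw [e]; exact h1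
    · have e : (1 - u * v) / (1 - v) - 1 = (v * (1 - u)) / ((1 - v)) := by first | ring1 | (field_simp; done) | (field_simp; ring1)
      rw [e]; exact (div_ne_zero (mul_ne_zero h2 a1) a2)
    · have e : u - 1 = (-((1 - u))) := by first | ring1 | (field_simp; done) | (field_simp; ring1)
      rw [e]; exact (neg_ne_zero.2 a1)
    · have e : (1 - u * v) / (1 - v) - (u) = ((1 - u)) / ((1 - v)) := by first | ring1 | (field_simp; done) | (field_simp; ring1)
      rw [e]; exact (div_ne_zero a1 a2)
  · show (1 / v, u) ∈ U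
    refine mem_U' ?_ ?_ ?_ ?_ ?_
    · have e : 1 / v = (1) / (v) := by first | ring1 | (field_simp; done) | (field_simp; ring1)
      rw [e]; exact (div_ne_zero one_ne_zero h2)
    · have e : u = u := by first | ring1 | (field_simp; done) | (field_simp; ring1)
      rw [e]; exact h1
    · have e : 1 / v - 1 = ((1 - v)) / (v) := by first | ring1 | (field_simp; done) | (field_simp; ring1)
      rw [e]; exact (div_ne_zero a2 h2)
    · have e : u - 1 = (-((1 - u))) := by first | ring1 | (field_simp; done) | (field_simp; ring1)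
      rw [e]; exact (neg_ne_zero.2 a1)
    · have e : 1 / v - (u) = ((1 - u * v)) / (v) := by first | ring1 | (field_simp; done) | (field_simp; ring1)
      rw [e]; exact (div_ne_zero a3 h2)
  · show (1 / v, (1 - u) / (1 - u * v)) ∈ U
    refine mem_U' ?_ ?_ ?_ ?_ ?_
    · have e : 1 / v = (1) / (v) := by first | ring1 | (field_simp; done) | (field_simp; ring1)
      rw [e]; exact (div_ne_zero one_ne_zero h2)
    · have e : (1 - u) / (1 - u * v) = ((1 - u)) / ((1 - u * v)) := by first | ring1 | (field_simp; done) | (field_simp; ring1)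
      rw [e]; exact (div_ne_zero a1 a3)
    · have e : 1 / v - 1 = ((1 - v)) / (v) := by first | ring1 | (field_simp; done) | (field_simp; ring1)
      rw [e]; exact (div_ne_zero a2 h2)
    · have e : (1 - u) / (1 - u * v) - 1 = ((-(u * (1 - v)))) / ((1 - u * v)) := by first | ring1 | (field_simp; done) | (field_simp; ring1)
      rw [e]; exact (div_ne_zero (neg_ne_zero.2 (mul_ne_zero h1 a2)) a3)
    · have e : 1 / v - ((1 - u) / (1 - u * v)) = ((1 - v)) / (v * (1 - u * v)) := by first | ring1 | (field_simp; done) | (field_simp; ring1)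
      rw [e]; exact (div_ne_zero a2 (mul_ne_zero h2 a3))
  · show ((1 - u * v) / (1 - v), 1 - u * v) ∈ U
    refine mem_U' ?_ ?_ ?_ ?_ ?_
    · have e : (1 - u * v) / (1 - v) = ((1 - u * v)) / ((1 - v)) := by first | ring1 | (field_simp; done) | (field_simp; ring1)
      rw [e]; exact (div_ne_zero a3 a2)
    · have e : 1 - u * v = (1 - u * v) := by first | ring1 | (field_simp; done) | (field_simp; ring1)
      rw [e]; exact a3
    · have e : (1 - u * v) / (1 - v) - 1 = (v * (1 - u)) / ((1 - v)) := by first | ring1 | (field_simp; done) | (field_simp; ring1)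
      rw [e]; exact (div_ne_zero (mul_ne_zero h2 a1) a2)
    · have e : 1 - u * v - 1 = (-(u * v)) := by first | ring1 | (field_simp; done) | (field_simp; ring1)
      rw [e]; exact (neg_ne_zero.2 (mul_ne_zero h1 h2))
    · have e : (1 - u * v) / (1 - v) - (1 - u * v) = (v * (1 - u * v)) / ((1 - v)) := by first | ring1 | (field_simp; done) | (field_simp; ring1)
      rw [e]; exact (div_ne_zero (mul_ne_zero h2 a3) a2)
  · show (1 / (1 - u * v), (1 - v) / (1 - u * v)) ∈ U
    refine mem_U' ?_ ?_ ?_ ?_ ?_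
    · have e : 1 / (1 - u * v) = (1) / ((1 - u * v)) := by first | ring1 | (field_simp; done) | (field_simp; ring1)
      rw [e]; exact (div_ne_zero one_ne_zero a3)
    · have e : (1 - v) / (1 - u * v) = ((1 - v)) / ((1 - u * v)) := by first | ring1 | (field_simp; done) | (field_simp; ring1)
      rw [e]; exact (div_ne_zero a2 a3)
    · have e : 1 / (1 - u * v) - 1 = (u * v) / ((1 - u * v)) := by first | ring1 | (field_simp; done) | (field_simp; ring1)
      rw [e]; exact (div_ne_zero (mul_ne_zero h1 h2) a3)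
    · have e : (1 - v) / (1 - u * v) - 1 = ((-(v * (1 - u)))) / ((1 - u * v)) := by first | ring1 | (field_simp; done) | (field_simp; ring1)
      rw [e]; exact (div_ne_zero (neg_ne_zero.2 (mul_ne_zero h2 a1)) a3)
    · have e : 1 / (1 - u * v) - ((1 - v) / (1 - u * v)) = (v) / ((1 - u * v)) := by first | ring1 | (field_simp; done) | (field_simp; ring1)
      rw [e]; exact (div_ne_zero h2 a3)
  · show (v, u * v) ∈ U
    refine mem_U' ?_ ?_ ?_ ?_ ?_
    · have e : v = v := by first | ring1 | (field_simp; done) | (field_simp; ring1)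
      rw [e]; exact h2
    · have e : u * v = u * v := by first | ring1 | (field_simp; done) | (field_simp; ring1)
      rw [e]; exact (mul_ne_zero h1 h2)
    · have e : v - 1 = (-((1 - v))) := by first | ring1 | (field_simp; done) | (field_simp; ring1)
      rw [e]; exact (neg_ne_zero.2 a2)
    · have e : u * v - 1 = (-((1 - u * v))) := by first | ring1 | (field_simp; done) | (field_simp; ring1)
      rw [e]; exact (neg_ne_zero.2 a3)
    · have e : v - (u * v) = v * (1 - u) := by first | ring1 | (field_simp; done) | (field_simp; ring1)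
      rw [e]; exact (mul_ne_zero h2 a1)
  · show (v, v * (1 - u) / (1 - u * v)) ∈ U
    refine mem_U' ?_ ?_ ?_ ?_ ?_
    · have e : v = v := by first | ring1 | (field_simp; done) | (field_simp; ring1)
      rw [e]; exact h2
    · have e : v * (1 - u) / (1 - u * v) = (v * (1 - u)) / ((1 - u * v)) := by first | ring1 | (field_simp; done) | (field_simp; ring1)
      rw [e]; exact (div_ne_zero (mul_ne_zero h2 a1) a3)
    · have e : v - 1 = (-((1 - v))) := by first | ring1 | (field_simp; done) | (field_simp; ring1)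
      rw [e]; exact (neg_ne_zero.2 a2)
    · have e : v * (1 - u) / (1 - u * v) - 1 = ((-((1 - v)))) / ((1 - u * v)) := by first | ring1 | (field_simp; done) | (field_simp; ring1)
      rw [e]; exact (div_ne_zero (neg_ne_zero.2 a2) a3)
    · have e : v - (v * (1 - u) / (1 - u * v)) = (u * v * (1 - v)) / ((1 - u * v)) := by first | ring1 | (field_simp; done) | (field_simp; ring1)
      rw [e]; exact (div_ne_zero (mul_ne_zero (mul_ne_zero h1 h2) a2) a3)
  · show ((1 - v) / (1 - u * v), 1 - v) ∈ U
    refine mem_U' ?_ ?_ ?_ ?_ ?_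
    · have e : (1 - v) / (1 - u * v) = ((1 - v)) / ((1 - u * v)) := by first | ring1 | (field_simp; done) | (field_simp; ring1)
      rw [e]; exact (div_ne_zero a2 a3)
    · have e : 1 - v = (1 - v) := by first | ring1 | (field_simp; done) | (field_simp; ring1)
      rw [e]; exact a2
    · have e : (1 - v) / (1 - u * v) - 1 = ((-(v * (1 - u)))) / ((1 - u * v)) := by first | ring1 | (field_simp; done) | (field_simp; ring1)
      rw [e]; exact (div_ne_zero (neg_ne_zero.2 (mul_ne_zero h2 a1)) a3)
    · have e : 1 - v - 1 = (-(v)) := by first | ring1 | (field_simp; done) | (field_simp; ring1)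
      rw [e]; exact (neg_ne_zero.2 h2)
    · have e : (1 - v) / (1 - u * v) - (1 - v) = ((1 - v) * u * v) / ((1 - u * v)) := by first | ring1 | (field_simp; done) | (field_simp; ring1)
      rw [e]; exact (div_ne_zero (mul_ne_zero (mul_ne_zero a2 h1) h2) a3)
  · show (u * (1 - v) / (1 - u * v), (1 - v) / (1 - u * v)) ∈ U
    refine mem_U' ?_ ?_ ?_ ?_ ?_
    · have e : u * (1 - v) / (1 - u * v) = (u * (1 - v)) / ((1 - u * v)) := by first | ring1 | (field_simp; done) | (field_simp; ring1)
      rw [e]; exact (div_ne_zero (mul_ne_zero h1 a2) a3)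
    · have e : (1 - v) / (1 - u * v) = ((1 - v)) / ((1 - u * v)) := by first | ring1 | (field_simp; done) | (field_simp; ring1)
      rw [e]; exact (div_ne_zero a2 a3)
    · have e : u * (1 - v) / (1 - u * v) - 1 = ((-((1 - u)))) / ((1 - u * v)) := by first | ring1 | (field_simp; done) | (field_simp; ring1)
      rw [e]; exact (div_ne_zero (neg_ne_zero.2 a1) a3)
    · have e : (1 - v) / (1 - u * v) - 1 = ((-(v * (1 - u)))) / ((1 - u * v)) := by first | ring1 | (field_simp; done) | (field_simp; ring1)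
      rw [e]; exact (div_ne_zero (neg_ne_zero.2 (mul_ne_zero h2 a1)) a3)
    · have e : u * (1 - v) / (1 - u * v) - ((1 - v) / (1 - u * v)) = ((-((1 - u) * (1 - v)))) / ((1 - u * v)) := by first | ring1 | (field_simp; done) | (field_simp; ring1)
      rw [e]; exact (div_ne_zero (neg_ne_zero.2 (mul_ne_zero a1 a2)) a3)
  · show (u * v, v) ∈ U
    refine mem_U' ?_ ?_ ?_ ?_ ?_
    · have e : u * v = u * v := by first | ring1 | (field_simp; done) | (field_simp; ring1)
      rw [e]; exact (mul_ne_zero h1 h2)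
    · have e : v = v := by first | ring1 | (field_simp; done) | (field_simp; ring1)
      rw [e]; exact h2
    · have e : u * v - 1 = (-((1 - u * v))) := by first | ring1 | (field_simp; done) | (field_simp; ring1)
      rw [e]; exact (neg_ne_zero.2 a3)
    · have e : v - 1 = (-((1 - v))) := by first | ring1 | (field_simp; done) | (field_simp; ring1)
      rw [e]; exact (neg_ne_zero.2 a2)
    · have e : u * v - (v) = (-(v * (1 - u))) := by first | ring1 | (field_simp; done) | (field_simp; ring1)
      rw [e]; exact (neg_ne_zero.2 (mul_ne_zero h2 a1))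
  · show ((1 - u * v) / (v * (1 - u)), 1 / v) ∈ U
    refine mem_U' ?_ ?_ ?_ ?_ ?_
    · have e : (1 - u * v) / (v * (1 - u)) = ((1 - u * v)) / (v * (1 - u)) := by first | ring1 | (field_simp; done) | (field_simp; ring1)
      rw [e]; exact (div_ne_zero a3 (mul_ne_zero h2 a1))
    · have e : 1 / v = (1) / (v) := by first | ring1 | (field_simp; done) | (field_simp; ring1)
      rw [e]; exact (div_ne_zero one_ne_zero h2)
    · have e : (1 - u * v) / (v * (1 - u)) - 1 = ((1 - v)) / (v * (1 - u)) := by first | ring1 | (field_simp; done) | (field_simp; ring1)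
      rw [e]; exact (div_ne_zero a2 (mul_ne_zero h2 a1))
    · have e : 1 / v - 1 = ((1 - v)) / (v) := by first | ring1 | (field_simp; done) | (field_simp; ring1)
      rw [e]; exact (div_ne_zero a2 h2)
    · have e : (1 - u * v) / (v * (1 - u)) - (1 / v) = (u * (1 - v)) / (v * (1 - u)) := by first | ring1 | (field_simp; done) | (field_simp; ring1)
      rw [e]; exact (div_ne_zero (mul_ne_zero h1 a2) (mul_ne_zero h2 a1))
  · show (1 / (u * v), 1 / v) ∈ U
    refine mem_U' ?_ ?_ ?_ ?_ ?_
    · have e : 1 / (u * v) = (1) / (u * v) := by first | ring1 | (field_simp; done) | (field_simp; ring1)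
      rw [e]; exact (div_ne_zero one_ne_zero (mul_ne_zero h1 h2))
    · have e : 1 / v = (1) / (v) := by first | ring1 | (field_simp; done) | (field_simp; ring1)
      rw [e]; exact (div_ne_zero one_ne_zero h2)
    · have e : 1 / (u * v) - 1 = ((1 - u * v)) / (u * v) := by first | ring1 | (field_simp; done) | (field_simp; ring1)
      rw [e]; exact (div_ne_zero a3 (mul_ne_zero h1 h2))
    · have e : 1 / v - 1 = ((1 - v)) / (v) := by first | ring1 | (field_simp; done) | (field_simp; ring1)
      rw [e]; exact (div_ne_zero a2 h2)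
    · have e : 1 / (u * v) - (1 / v) = ((1 - u)) / (u * v) := by first | ring1 | (field_simp; done) | (field_simp; ring1)
      rw [e]; exact (div_ne_zero a1 (mul_ne_zero h1 h2))
  · show (1 / v, 1 / (u * v)) ∈ U
    refine mem_U' ?_ ?_ ?_ ?_ ?_
    · have e : 1 / v = (1) / (v) := by first | ring1 | (field_simp; done) | (field_simp; ring1)
      rw [e]; exact (div_ne_zero one_ne_zero h2)
    · have e : 1 / (u * v) = (1) / (u * v) := by first | ring1 | (field_simp; done) | (field_simp; ring1)
      rw [e]; exact (div_ne_zero one_ne_zero (mul_ne_zero h1 h2))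
    · have e : 1 / v - 1 = ((1 - v)) / (v) := by first | ring1 | (field_simp; done) | (field_simp; ring1)
      rw [e]; exact (div_ne_zero a2 h2)
    · have e : 1 / (u * v) - 1 = ((1 - u * v)) / (u * v) := by first | ring1 | (field_simp; done) | (field_simp; ring1)
      rw [e]; exact (div_ne_zero a3 (mul_ne_zero h1 h2))
    · have e : 1 / v - (1 / (u * v)) = ((-((1 - u)))) / (u * v) := by first | ring1 | (field_simp; done) | (field_simp; ring1)
      rw [e]; exact (div_ne_zero (neg_ne_zero.2 a1) (mul_ne_zero h1 h2))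
  · show ((1 - u * v) / (1 - u), (1 - u * v) / (v * (1 - u))) ∈ U
    refine mem_U' ?_ ?_ ?_ ?_ ?_
    · have e : (1 - u * v) / (1 - u) = ((1 - u * v)) / ((1 - u)) := by first | ring1 | (field_simp; done) | (field_simp; ring1)
      rw [e]; exact (div_ne_zero a3 a1)
    · have e : (1 - u * v) / (v * (1 - u)) = ((1 - u * v)) / (v * (1 - u)) := by first | ring1 | (field_simp; done) | (field_simp; ring1)
      rw [e]; exact (div_ne_zero a3 (mul_ne_zero h2 a1))
    · have e : (1 - u * v) / (1 - u) - 1 = (u * (1 - v)) / ((1 - u)) := by first | ring1 | (field_simp; done) | (field_simp; ring1)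
      rw [e]; exact (div_ne_zero (mul_ne_zero h1 a2) a1)
    · have e : (1 - u * v) / (v * (1 - u)) - 1 = ((1 - v)) / (v * (1 - u)) := by first | ring1 | (field_simp; done) | (field_simp; ring1)
      rw [e]; exact (div_ne_zero a2 (mul_ne_zero h2 a1))
    · have e : (1 - u * v) / (1 - u) - ((1 - u * v) / (v * (1 - u))) = ((-((1 - v) * (1 - u * v)))) / (v * (1 - u)) := by first | ring1 | (field_simp; done) | (field_simp; ring1)
      rw [e]; exact (div_ne_zero (neg_ne_zero.2 (mul_ne_zero a2 a3)) (mul_ne_zero h2 a1))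
  · show (u, 1 / v) ∈ U
    refine mem_U' ?_ ?_ ?_ ?_ ?_
    · have e : u = u := by first | ring1 | (field_simp; done) | (field_simp; ring1)
      rw [e]; exact h1
    · have e : 1 / v = (1) / (v) := by first | ring1 | (field_simp; done) | (field_simp; ring1)
      rw [e]; exact (div_ne_zero one_ne_zero h2)
    · have e : u - 1 = (-((1 - u))) := by first | ring1 | (field_simp; done) | (field_simp; ring1)
      rw [e]; exact (neg_ne_zero.2 a1)
    · have e : 1 / v - 1 = ((1 - v)) / (v) := by first | ring1 | (field_simp; done) | (field_simp; ring1)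
      rw [e]; exact (div_ne_zero a2 h2)
    · have e : u - (1 / v) = ((-((1 - u * v)))) / (v) := by first | ring1 | (field_simp; done) | (field_simp; ring1)
      rw [e]; exact (div_ne_zero (neg_ne_zero.2 a3) h2)

theorem kapX_mem {w : ℂ × ℂ} (hw : w ∈ W) : kapX w ∈ U := by
  obtain ⟨u, v⟩ := w
  obtain ⟨h1, h2, h3, h4, h5⟩ := hw
  simp only at h1 h2 h3 h4 h5
  have a1 : 1 - u ≠ 0 := sub_ne_zero.2 (Ne.symm h3)
  have a2 : 1 - v ≠ 0 := sub_ne_zero.2 (Ne.symm h4)
  have a3 : 1 - u * v ≠ 0 := sub_ne_zero.2 (Ne.symm h5)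
  have a4 : 1 - v * u ≠ 0 := by rwa [mul_comm v u]
  show ((1 - v) / (1 - u * v), u * (1 - v) / (1 - u * v)) ∈ U
  refine mem_U' ?_ ?_ ?_ ?_ ?_
  · have e : (1 - v) / (1 - u * v) = ((1 - v)) / ((1 - u * v)) := by first | ring1 | (field_simp; done) | (field_simp; ring1)
    rw [e]; exact (div_ne_zero a2 a3)
  · have e : u * (1 - v) / (1 - u * v) = (u * (1 - v)) / ((1 - u * v)) := by first | ring1 | (field_simp; done) | (field_simp; ring1)
    rw [e]; exact (div_ne_zero (mul_ne_zero h1 a2) a3)
  · have e : (1 - v) / (1 - u * v) - 1 = ((-(v * (1 - u)))) / ((1 - u * v)) := by first | ring1 | (field_simp; done) | (field_simp; ring1)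
    rw [e]; exact (div_ne_zero (neg_ne_zero.2 (mul_ne_zero h2 a1)) a3)
  · have e : u * (1 - v) / (1 - u * v) - 1 = ((-((1 - u)))) / ((1 - u * v)) := by first | ring1 | (field_simp; done) | (field_simp; ring1)
    rw [e]; exact (div_ne_zero (neg_ne_zero.2 a1) a3)
  · have e : (1 - v) / (1 - u * v) - (u * (1 - v) / (1 - u * v)) = ((1 - v) * (1 - u)) / ((1 - u * v)) := by first | ring1 | (field_simp; done) | (field_simp; ring1)
    rw [e]; exact (div_ne_zero (mul_ne_zero a2 a1) a3)

theorem kapInv_mem (ν : Fin 15) {q : ℂ × ℂ} (hq : q ∈ U) : kapInv ν q ∈ W := by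
  obtain ⟨x, l⟩ := q
  obtain ⟨hx, h2, hl, h4, h5⟩ := hq
  simp only at hx h2 hl h4 h5
  have hX : 1 - x ≠ 0 := sub_ne_zero.2 (Ne.symm h2)
  have hL : 1 - l ≠ 0 := sub_ne_zero.2 (Ne.symm h4)
  have hD : x - l ≠ 0 := sub_ne_zero.2 h5
  fin_cases ν
  · show (l, ((-((1 - x)))) / ((x - l))) ∈ W
    refine mem_W' ?_ ?_ ?_ ?_ ?_
    · exact hl
    · exact (div_ne_zero (neg_ne_zero.2 hX) hD)
    · have e : 1 - (l) = (1 - l) := by first | ring1 | (field_simp; done) | (field_simp; ring1)
      rw [e]; exact hL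
    · have e : 1 - (((-((1 - x)))) / ((x - l))) = ((1 - l)) / ((x - l)) := by first | ring1 | (field_simp; done) | (field_simp; ring1)
      rw [e]; exact (div_ne_zero hL hD)
    · have e : 1 - (l) * (((-((1 - x)))) / ((x - l))) = (x * (1 - l)) / ((x - l)) := by first | ring1 | (field_simp; done) | (field_simp; ring1)
      rw [e]; exact (div_ne_zero (mul_ne_zero hx hL) hD)
  · show (l, (1) / (x)) ∈ W
    refine mem_W' ?_ ?_ ?_ ?_ ?_
    · exact hl
    · exact (div_ne_zero one_ne_zero hx)
    · have e : 1 - (l) = (1 - l) := by first | ring1 | (field_simp; done) | (field_simp; ring1)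
      rw [e]; exact hL
    · have e : 1 - ((1) / (x)) = ((-((1 - x)))) / (x) := by first | ring1 | (field_simp; done) | (field_simp; ring1)
      rw [e]; exact (div_ne_zero (neg_ne_zero.2 hX) hx)
    · have e : 1 - (l) * ((1) / (x)) = ((x - l)) / (x) := by first | ring1 | (field_simp; done) | (field_simp; ring1)
      rw [e]; exact (div_ne_zero hD hx)
  · show ((x * (1 - l)) / ((x - l)), (1) / (x)) ∈ W
    refine mem_W' ?_ ?_ ?_ ?_ ?_
    · exact (div_ne_zero (mul_ne_zero hx hL) hD)
    · exact (div_ne_zero one_ne_zero hx)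
    · have e : 1 - ((x * (1 - l)) / ((x - l))) = ((-(l * (1 - x)))) / ((x - l)) := by first | ring1 | (field_simp; done) | (field_simp; ring1)
      rw [e]; exact (div_ne_zero (neg_ne_zero.2 (mul_ne_zero hl hX)) hD)
    · have e : 1 - ((1) / (x)) = ((-((1 - x)))) / (x) := by first | ring1 | (field_simp; done) | (field_simp; ring1)
      rw [e]; exact (div_ne_zero (neg_ne_zero.2 hX) hx)
    · have e : 1 - ((x * (1 - l)) / ((x - l))) * ((1) / (x)) = ((-((1 - x)))) / ((x - l)) := by first | ring1 | (field_simp; done) | (field_simp; ring1)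
      rw [e]; exact (div_ne_zero (neg_ne_zero.2 hX) hD)
  · show ((x * (1 - l)) / ((x - l)), ((x - l)) / (x)) ∈ W
    refine mem_W' ?_ ?_ ?_ ?_ ?_
    · exact (div_ne_zero (mul_ne_zero hx hL) hD)
    · exact (div_ne_zero hD hx)
    · have e : 1 - ((x * (1 - l)) / ((x - l))) = ((-(l * (1 - x)))) / ((x - l)) := by first | ring1 | (field_simp; done) | (field_simp; ring1)
      rw [e]; exact (div_ne_zero (neg_ne_zero.2 (mul_ne_zero hl hX)) hD)
    · have e : 1 - (((x - l)) / (x)) = (l) / (x) := by first | ring1 | (field_simp; done) | (field_simp; ring1)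
      rw [e]; exact (div_ne_zero hl hx)
    · have e : 1 - ((x * (1 - l)) / ((x - l))) * (((x - l)) / (x)) = l := by first | ring1 | (field_simp; done) | (field_simp; ring1)
      rw [e]; exact hl
  · show (((-((1 - x)))) / ((x - l)), ((x - l)) / (x)) ∈ W
    refine mem_W' ?_ ?_ ?_ ?_ ?_
    · exact (div_ne_zero (neg_ne_zero.2 hX) hD)
    · exact (div_ne_zero hD hx)
    · have e : 1 - (((-((1 - x)))) / ((x - l))) = ((1 - l)) / ((x - l)) := by first | ring1 | (field_simp; done) | (field_simp; ring1)
      rw [e]; exact (div_ne_zero hL hD)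
    · have e : 1 - (((x - l)) / (x)) = (l) / (x) := by first | ring1 | (field_simp; done) | (field_simp; ring1)
      rw [e]; exact (div_ne_zero hl hx)
    · have e : 1 - (((-((1 - x)))) / ((x - l))) * (((x - l)) / (x)) = (1) / (x) := by first | ring1 | (field_simp; done) | (field_simp; ring1)
      rw [e]; exact (div_ne_zero one_ne_zero hx)
  · show ((l) / (x), x) ∈ W
    refine mem_W' ?_ ?_ ?_ ?_ ?_
    · exact (div_ne_zero hl hx)
    · exact hx
    · have e : 1 - ((l) / (x)) = ((x - l)) / (x) := by first | ring1 | (field_simp; done) | (field_simp; ring1)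
      rw [e]; exact (div_ne_zero hD hx)
    · have e : 1 - (x) = (1 - x) := by first | ring1 | (field_simp; done) | (field_simp; ring1)
      rw [e]; exact hX
    · have e : 1 - ((l) / (x)) * (x) = (1 - l) := by first | ring1 | (field_simp; done) | (field_simp; ring1)
      rw [e]; exact hL
  · show (((x - l)) / (x * (1 - l)), x) ∈ W
    refine mem_W' ?_ ?_ ?_ ?_ ?_
    · exact (div_ne_zero hD (mul_ne_zero hx hL))
    · exact hx
    · have e : 1 - (((x - l)) / (x * (1 - l))) = (l * (1 - x)) / (x * (1 - l)) := by first | ring1 | (field_simp; done) | (field_simp; ring1)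
      rw [e]; exact (div_ne_zero (mul_ne_zero hl hX) (mul_ne_zero hx hL))
    · have e : 1 - (x) = (1 - x) := by first | ring1 | (field_simp; done) | (field_simp; ring1)
      rw [e]; exact hX
    · have e : 1 - (((x - l)) / (x * (1 - l))) * (x) = ((1 - x)) / ((1 - l)) := by first | ring1 | (field_simp; done) | (field_simp; ring1)
      rw [e]; exact (div_ne_zero hX hL)
  · show (((x - l)) / (x * (1 - l)), (1 - l)) ∈ W
    refine mem_W' ?_ ?_ ?_ ?_ ?_
    · exact (div_ne_zero hD (mul_ne_zero hx hL))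
    · exact hL
    · have e : 1 - (((x - l)) / (x * (1 - l))) = (l * (1 - x)) / (x * (1 - l)) := by first | ring1 | (field_simp; done) | (field_simp; ring1)
      rw [e]; exact (div_ne_zero (mul_ne_zero hl hX) (mul_ne_zero hx hL))
    · have e : 1 - ((1 - l)) = l := by first | ring1 | (field_simp; done) | (field_simp; ring1)
      rw [e]; exact hl
    · have e : 1 - (((x - l)) / (x * (1 - l))) * ((1 - l)) = (l) / (x) := by first | ring1 | (field_simp; done) | (field_simp; ring1)
      rw [e]; exact (div_ne_zero hl hx)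
  · show ((x) / (l), ((1 - l)) / ((1 - x))) ∈ W
    refine mem_W' ?_ ?_ ?_ ?_ ?_
    · exact (div_ne_zero hx hl)
    · exact (div_ne_zero hL hX)
    · have e : 1 - ((x) / (l)) = ((-((x - l)))) / (l) := by first | ring1 | (field_simp; done) | (field_simp; ring1)
      rw [e]; exact (div_ne_zero (neg_ne_zero.2 hD) hl)
    · have e : 1 - (((1 - l)) / ((1 - x))) = ((-((x - l)))) / ((1 - x)) := by first | ring1 | (field_simp; done) | (field_simp; ring1)
      rw [e]; exact (div_ne_zero (neg_ne_zero.2 hD) hX)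
    · have e : 1 - ((x) / (l)) * (((1 - l)) / ((1 - x))) = ((-((x - l)))) / (l * (1 - x)) := by first | ring1 | (field_simp; done) | (field_simp; ring1)
      rw [e]; exact (div_ne_zero (neg_ne_zero.2 hD) (mul_ne_zero hl hX))
  · show ((x) / (l), l) ∈ W
    refine mem_W' ?_ ?_ ?_ ?_ ?_
    · exact (div_ne_zero hx hl)
    · exact hl
    · have e : 1 - ((x) / (l)) = ((-((x - l)))) / (l) := by first | ring1 | (field_simp; done) | (field_simp; ring1)
      rw [e]; exact (div_ne_zero (neg_ne_zero.2 hD) hl)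
    · have e : 1 - (l) = (1 - l) := by first | ring1 | (field_simp; done) | (field_simp; ring1)
      rw [e]; exact hL
    · have e : 1 - ((x) / (l)) * (l) = (1 - x) := by first | ring1 | (field_simp; done) | (field_simp; ring1)
      rw [e]; exact hX
  · show (((-((x - l)))) / ((1 - x)), (1) / (l)) ∈ W
    refine mem_W' ?_ ?_ ?_ ?_ ?_
    · exact (div_ne_zero (neg_ne_zero.2 hD) hX)
    · exact (div_ne_zero one_ne_zero hl)
    · have e : 1 - (((-((x - l)))) / ((1 - x))) = ((1 - l)) / ((1 - x)) := by first | ring1 | (field_simp; done) | (field_simp; ring1)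
      rw [e]; exact (div_ne_zero hL hX)
    · have e : 1 - ((1) / (l)) = ((-((1 - l)))) / (l) := by first | ring1 | (field_simp; done) | (field_simp; ring1)
      rw [e]; exact (div_ne_zero (neg_ne_zero.2 hL) hl)
    · have e : 1 - (((-((x - l)))) / ((1 - x))) * ((1) / (l)) = (x * (1 - l)) / (l * (1 - x)) := by first | ring1 | (field_simp; done) | (field_simp; ring1)
      rw [e]; exact (div_ne_zero (mul_ne_zero hx hL) (mul_ne_zero hl hX))
  · show ((l) / (x), (1) / (l)) ∈ W
    refine mem_W' ?_ ?_ ?_ ?_ ?_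
    · exact (div_ne_zero hl hx)
    · exact (div_ne_zero one_ne_zero hl)
    · have e : 1 - ((l) / (x)) = ((x - l)) / (x) := by first | ring1 | (field_simp; done) | (field_simp; ring1)
      rw [e]; exact (div_ne_zero hD hx)
    · have e : 1 - ((1) / (l)) = ((-((1 - l)))) / (l) := by first | ring1 | (field_simp; done) | (field_simp; ring1)
      rw [e]; exact (div_ne_zero (neg_ne_zero.2 hL) hl)
    · have e : 1 - ((l) / (x)) * ((1) / (l)) = ((-((1 - x)))) / (x) := by first | ring1 | (field_simp; done) | (field_simp; ring1)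
      rw [e]; exact (div_ne_zero (neg_ne_zero.2 hX) hx)
  · show ((x) / (l), (1) / (x)) ∈ W
    refine mem_W' ?_ ?_ ?_ ?_ ?_
    · exact (div_ne_zero hx hl)
    · exact (div_ne_zero one_ne_zero hx)
    · have e : 1 - ((x) / (l)) = ((-((x - l)))) / (l) := by first | ring1 | (field_simp; done) | (field_simp; ring1)
      rw [e]; exact (div_ne_zero (neg_ne_zero.2 hD) hl)
    · have e : 1 - ((1) / (x)) = ((-((1 - x)))) / (x) := by first | ring1 | (field_simp; done) | (field_simp; ring1)
      rw [e]; exact (div_ne_zero (neg_ne_zero.2 hX) hx)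
    · have e : 1 - ((x) / (l)) * ((1) / (x)) = ((-((1 - l)))) / (l) := by first | ring1 | (field_simp; done) | (field_simp; ring1)
      rw [e]; exact (div_ne_zero (neg_ne_zero.2 hL) hl)
  · show ((l * (1 - x)) / (x * (1 - l)), (x) / (l)) ∈ W
    refine mem_W' ?_ ?_ ?_ ?_ ?_
    · exact (div_ne_zero (mul_ne_zero hl hX) (mul_ne_zero hx hL))
    · exact (div_ne_zero hx hl)
    · have e : 1 - ((l * (1 - x)) / (x * (1 - l))) = ((x - l)) / (x * (1 - l)) := by first | ring1 | (field_simp; done) | (field_simp; ring1)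
      rw [e]; exact (div_ne_zero hD (mul_ne_zero hx hL))
    · have e : 1 - ((x) / (l)) = ((-((x - l)))) / (l) := by first | ring1 | (field_simp; done) | (field_simp; ring1)
      rw [e]; exact (div_ne_zero (neg_ne_zero.2 hD) hl)
    · have e : 1 - ((l * (1 - x)) / (x * (1 - l))) * ((x) / (l)) = ((x - l)) / ((1 - l)) := by first | ring1 | (field_simp; done) | (field_simp; ring1)
      rw [e]; exact (div_ne_zero hD hL)
  · show (x, (1) / (l)) ∈ W
    refine mem_W' ?_ ?_ ?_ ?_ ?_
    · exact hx
    · exact (div_ne_zero one_ne_zero hl)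
    · have e : 1 - (x) = (1 - x) := by first | ring1 | (field_simp; done) | (field_simp; ring1)
      rw [e]; exact hX
    · have e : 1 - ((1) / (l)) = ((-((1 - l)))) / (l) := by first | ring1 | (field_simp; done) | (field_simp; ring1)
      rw [e]; exact (div_ne_zero (neg_ne_zero.2 hL) hl)
    · have e : 1 - (x) * ((1) / (l)) = ((-((x - l)))) / (l) := by first | ring1 | (field_simp; done) | (field_simp; ring1)
      rw [e]; exact (div_ne_zero (neg_ne_zero.2 hD) hl)

theorem kapXInv_mem {q : ℂ × ℂ} (hq : q ∈ U) : kapXInv q ∈ W := by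
  obtain ⟨x, l⟩ := q
  obtain ⟨hx, h2, hl, h4, h5⟩ := hq
  simp only at hx h2 hl h4 h5
  have hX : 1 - x ≠ 0 := sub_ne_zero.2 (Ne.symm h2)
  have hL : 1 - l ≠ 0 := sub_ne_zero.2 (Ne.symm h4)
  have hD : x - l ≠ 0 := sub_ne_zero.2 h5
  show ((l) / (x), ((1 - x)) / ((1 - l))) ∈ W
  refine mem_W' ?_ ?_ ?_ ?_ ?_
  · exact (div_ne_zero hl hx)
  · exact (div_ne_zero hX hL)
  · have e : 1 - ((l) / (x)) = ((x - l)) / (x) := by first | ring1 | (field_simp; done) | (field_simp; ring1)
    rw [e]; exact (div_ne_zero hD hx)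
  · have e : 1 - (((1 - x)) / ((1 - l))) = ((x - l)) / ((1 - l)) := by first | ring1 | (field_simp; done) | (field_simp; ring1)
    rw [e]; exact (div_ne_zero hD hL)
  · have e : 1 - ((l) / (x)) * (((1 - x)) / ((1 - l))) = ((x - l)) / (x * (1 - l)) := by first | ring1 | (field_simp; done) | (field_simp; ring1)
    rw [e]; exact (div_ne_zero hD (mul_ne_zero hx hL))

theorem kapInv_kap (ν : Fin 15) {w : ℂ × ℂ} (hw : w ∈ W) : kapInv ν (kap ν w) = w := by
  obtain ⟨u, v⟩ := w
  obtain ⟨h1, h2, h3, h4, h5⟩ := hw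
  simp only at h1 h2 h3 h4 h5
  have a1 : 1 - u ≠ 0 := sub_ne_zero.2 (Ne.symm h3)
  have a2 : 1 - v ≠ 0 := sub_ne_zero.2 (Ne.symm h4)
  have a3 : 1 - u * v ≠ 0 := sub_ne_zero.2 (Ne.symm h5)
  have a4 : 1 - v * u ≠ 0 := by rwa [mul_comm v u]
  fin_cases ν
  · have eX : 1 - ((1 - u * v) / (1 - v)) = ((-(v * (1 - u)))) / ((1 - v)) := by first | ring1 | (field_simp; done) | (field_simp; ring1)
    have eL : 1 - (u) = (1 - u) := by first | ring1 | (field_simp; done) | (field_simp; ring1)
    have eD : (1 - u * v) / (1 - v) - (u) = ((1 - u)) / ((1 - v)) := by first | ring1 | (field_simp; done) | (field_simp; ring1)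
    show ((u), ((-((1 - ((1 - u * v) / (1 - v)))))) / ((((1 - u * v) / (1 - v)) - (u)))) = (u, v)
    try simp only [eX, eL, eD]
    all_goals refine Prod.ext ?_ ?_ <;> simp only <;> first | ring1 | (field_simp; done) | (field_simp; ring1)
  · have eX : 1 - (1 / v) = ((-((1 - v)))) / (v) := by first | ring1 | (field_simp; done) | (field_simp; ring1)
    have eL : 1 - (u) = (1 - u) := by first | ring1 | (field_simp; done) | (field_simp; ring1)
    have eD : 1 / v - (u) = ((1 - u * v)) / (v) := by first | ring1 | (field_simp; done) | (field_simp; ring1)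
    show ((u), (1) / ((1 / v))) = (u, v)
    try simp only [eX, eL, eD]
    all_goals refine Prod.ext ?_ ?_ <;> simp only <;> first | ring1 | (field_simp; done) | (field_simp; ring1)
  · have eX : 1 - (1 / v) = ((-((1 - v)))) / (v) := by first | ring1 | (field_simp; done) | (field_simp; ring1)
    have eL : 1 - ((1 - u) / (1 - u * v)) = (u * (1 - v)) / ((1 - u * v)) := by first | ring1 | (field_simp; done) | (field_simp; ring1)
    have eD : 1 / v - ((1 - u) / (1 - u * v)) = ((1 - v)) / (v * (1 - u * v)) := by first | ring1 | (field_simp; done) | (field_simp; ring1)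
    show (((1 / v) * (1 - ((1 - u) / (1 - u * v)))) / (((1 / v) - ((1 - u) / (1 - u * v)))), (1) / ((1 / v))) = (u, v)
    try simp only [eX, eL, eD]
    all_goals refine Prod.ext ?_ ?_ <;> simp only <;> first | ring1 | (field_simp; done) | (field_simp; ring1)
  · have eX : 1 - ((1 - u * v) / (1 - v)) = ((-(v * (1 - u)))) / ((1 - v)) := by first | ring1 | (field_simp; done) | (field_simp; ring1)
    have eL : 1 - (1 - u * v) = u * v := by first | ring1 | (field_simp; done) | (field_simp; ring1)
    have eD : (1 - u * v) / (1 - v) - (1 - u * v) = (v * (1 - u * v)) / ((1 - v)) := by first | ring1 | (field_simp; done) | (field_simp; ring1)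
    show ((((1 - u * v) / (1 - v)) * (1 - (1 - u * v))) / ((((1 - u * v) / (1 - v)) - (1 - u * v))), ((((1 - u * v) / (1 - v)) - (1 - u * v))) / (((1 - u * v) / (1 - v)))) = (u, v)
    try simp only [eX, eL, eD]
    all_goals refine Prod.ext ?_ ?_ <;> simp only <;> first | ring1 | (field_simp; done) | (field_simp; ring1)
  · have eX : 1 - (1 / (1 - u * v)) = ((-(u * v))) / ((1 - u * v)) := by first | ring1 | (field_simp; done) | (field_simp; ring1)
    have eL : 1 - ((1 - v) / (1 - u * v)) = (v * (1 - u)) / ((1 - u * v)) := by first | ring1 | (field_simp; done) | (field_simp; ring1)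
    have eD : 1 / (1 - u * v) - ((1 - v) / (1 - u * v)) = (v) / ((1 - u * v)) := by first | ring1 | (field_simp; done) | (field_simp; ring1)
    show (((-((1 - (1 / (1 - u * v)))))) / (((1 / (1 - u * v)) - ((1 - v) / (1 - u * v)))), (((1 / (1 - u * v)) - ((1 - v) / (1 - u * v)))) / ((1 / (1 - u * v)))) = (u, v)
    try simp only [eX, eL, eD]
    all_goals refine Prod.ext ?_ ?_ <;> simp only <;> first | ring1 | (field_simp; done) | (field_simp; ring1)
  · have eX : 1 - (v) = (1 - v) := by first | ring1 | (field_simp; done) | (field_simp; ring1)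
    have eL : 1 - (u * v) = (1 - u * v) := by first | ring1 | (field_simp; done) | (field_simp; ring1)
    have eD : v - (u * v) = v * (1 - u) := by first | ring1 | (field_simp; done) | (field_simp; ring1)
    show (((u * v)) / ((v)), (v)) = (u, v)
    try simp only [eX, eL, eD]
    all_goals refine Prod.ext ?_ ?_ <;> simp only <;> first | ring1 | (field_simp; done) | (field_simp; ring1)
  · have eX : 1 - (v) = (1 - v) := by first | ring1 | (field_simp; done) | (field_simp; ring1)
    have eL : 1 - (v * (1 - u) / (1 - u * v)) = ((1 - v)) / ((1 - u * v)) := by first | ring1 | (field_simp; done) | (field_simp; ring1)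
    have eD : v - (v * (1 - u) / (1 - u * v)) = (u * v * (1 - v)) / ((1 - u * v)) := by first | ring1 | (field_simp; done) | (field_simp; ring1)
    show ((((v) - (v * (1 - u) / (1 - u * v)))) / ((v) * (1 - (v * (1 - u) / (1 - u * v)))), (v)) = (u, v)
    try simp only [eX, eL, eD]
    all_goals refine Prod.ext ?_ ?_ <;> simp only <;> first | ring1 | (field_simp; done) | (field_simp; ring1)
  · have eX : 1 - ((1 - v) / (1 - u * v)) = (v * (1 - u)) / ((1 - u * v)) := by first | ring1 | (field_simp; done) | (field_simp; ring1)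
    have eL : 1 - (1 - v) = v := by first | ring1 | (field_simp; done) | (field_simp; ring1)
    have eD : (1 - v) / (1 - u * v) - (1 - v) = ((1 - v) * u * v) / ((1 - u * v)) := by first | ring1 | (field_simp; done) | (field_simp; ring1)
    show (((((1 - v) / (1 - u * v)) - (1 - v))) / (((1 - v) / (1 - u * v)) * (1 - (1 - v))), (1 - (1 - v))) = (u, v)
    try simp only [eX, eL, eD]
    all_goals refine Prod.ext ?_ ?_ <;> simp only <;> first | ring1 | (field_simp; done) | (field_simp; ring1)
  · have eX : 1 - (u * (1 - v) / (1 - u * v)) = ((1 - u)) / ((1 - u * v)) := by first | ring1 | (field_simp; done) | (field_simp; ring1)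
    have eL : 1 - ((1 - v) / (1 - u * v)) = (v * (1 - u)) / ((1 - u * v)) := by first | ring1 | (field_simp; done) | (field_simp; ring1)
    have eD : u * (1 - v) / (1 - u * v) - ((1 - v) / (1 - u * v)) = ((-((1 - u) * (1 - v)))) / ((1 - u * v)) := by first | ring1 | (field_simp; done) | (field_simp; ring1)
    show (((u * (1 - v) / (1 - u * v))) / (((1 - v) / (1 - u * v))), ((1 - ((1 - v) / (1 - u * v)))) / ((1 - (u * (1 - v) / (1 - u * v))))) = (u, v)
    try simp only [eX, eL, eD]
    all_goals refine Prod.ext ?_ ?_ <;> simp only <;> first | ring1 | (field_simp; done) | (field_simp; ring1)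
  · have eX : 1 - (u * v) = (1 - u * v) := by first | ring1 | (field_simp; done) | (field_simp; ring1)
    have eL : 1 - (v) = (1 - v) := by first | ring1 | (field_simp; done) | (field_simp; ring1)
    have eD : u * v - (v) = (-(v * (1 - u))) := by first | ring1 | (field_simp; done) | (field_simp; ring1)
    show (((u * v)) / ((v)), (v)) = (u, v)
    try simp only [eX, eL, eD]
    all_goals refine Prod.ext ?_ ?_ <;> simp only <;> first | ring1 | (field_simp; done) | (field_simp; ring1)
  · have eX : 1 - ((1 - u * v) / (v * (1 - u))) = ((-((1 - v)))) / (v * (1 - u)) := by first | ring1 | (field_simp; done) | (field_simp; ring1)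
    have eL : 1 - (1 / v) = ((-((1 - v)))) / (v) := by first | ring1 | (field_simp; done) | (field_simp; ring1)
    have eD : (1 - u * v) / (v * (1 - u)) - (1 / v) = (u * (1 - v)) / (v * (1 - u)) := by first | ring1 | (field_simp; done) | (field_simp; ring1)
    show (((-((((1 - u * v) / (v * (1 - u))) - (1 / v))))) / ((1 - ((1 - u * v) / (v * (1 - u))))), (1) / ((1 / v))) = (u, v)
    try simp only [eX, eL, eD]
    all_goals refine Prod.ext ?_ ?_ <;> simp only <;> first | ring1 | (field_simp; done) | (field_simp; ring1)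
  · have eX : 1 - (1 / (u * v)) = ((-((1 - u * v)))) / (u * v) := by first | ring1 | (field_simp; done) | (field_simp; ring1)
    have eL : 1 - (1 / v) = ((-((1 - v)))) / (v) := by first | ring1 | (field_simp; done) | (field_simp; ring1)
    have eD : 1 / (u * v) - (1 / v) = ((1 - u)) / (u * v) := by first | ring1 | (field_simp; done) | (field_simp; ring1)
    show (((1 / v)) / ((1 / (u * v))), (1) / ((1 / v))) = (u, v)
    try simp only [eX, eL, eD]
    all_goals refine Prod.ext ?_ ?_ <;> simp only <;> first | ring1 | (field_simp; done) | (field_simp; ring1)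
  · have eX : 1 - (1 / v) = ((-((1 - v)))) / (v) := by first | ring1 | (field_simp; done) | (field_simp; ring1)
    have eL : 1 - (1 / (u * v)) = ((-((1 - u * v)))) / (u * v) := by first | ring1 | (field_simp; done) | (field_simp; ring1)
    have eD : 1 / v - (1 / (u * v)) = ((-((1 - u)))) / (u * v) := by first | ring1 | (field_simp; done) | (field_simp; ring1)
    show (((1 / v)) / ((1 / (u * v))), (1) / ((1 / v))) = (u, v)
    try simp only [eX, eL, eD]
    all_goals refine Prod.ext ?_ ?_ <;> simp only <;> first | ring1 | (field_simp; done) | (field_simp; ring1)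
  · have eX : 1 - ((1 - u * v) / (1 - u)) = ((-(u * (1 - v)))) / ((1 - u)) := by first | ring1 | (field_simp; done) | (field_simp; ring1)
    have eL : 1 - ((1 - u * v) / (v * (1 - u))) = ((-((1 - v)))) / (v * (1 - u)) := by first | ring1 | (field_simp; done) | (field_simp; ring1)
    have eD : (1 - u * v) / (1 - u) - ((1 - u * v) / (v * (1 - u))) = ((-((1 - v) * (1 - u * v)))) / (v * (1 - u)) := by first | ring1 | (field_simp; done) | (field_simp; ring1)
    show ((((1 - u * v) / (v * (1 - u))) * (1 - ((1 - u * v) / (1 - u)))) / (((1 - u * v) / (1 - u)) * (1 - ((1 - u * v) / (v * (1 - u))))), (((1 - u * v) / (1 - u))) / (((1 - u * v) / (v * (1 - u))))) = (u, v)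
    try simp only [eX, eL, eD]
    all_goals refine Prod.ext ?_ ?_ <;> simp only <;> first | ring1 | (field_simp; done) | (field_simp; ring1)
  · have eX : 1 - (u) = (1 - u) := by first | ring1 | (field_simp; done) | (field_simp; ring1)
    have eL : 1 - (1 / v) = ((-((1 - v)))) / (v) := by first | ring1 | (field_simp; done) | (field_simp; ring1)
    have eD : u - (1 / v) = ((-((1 - u * v)))) / (v) := by first | ring1 | (field_simp; done) | (field_simp; ring1)
    show ((u), (1) / ((1 / v))) = (u, v)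
    try simp only [eX, eL, eD]
    all_goals refine Prod.ext ?_ ?_ <;> simp only <;> first | ring1 | (field_simp; done) | (field_simp; ring1)

theorem kapXInv_kapX {w : ℂ × ℂ} (hw : w ∈ W) : kapXInv (kapX w) = w := by
  obtain ⟨u, v⟩ := w
  obtain ⟨h1, h2, h3, h4, h5⟩ := hw
  simp only at h1 h2 h3 h4 h5
  have a1 : 1 - u ≠ 0 := sub_ne_zero.2 (Ne.symm h3)
  have a2 : 1 - v ≠ 0 := sub_ne_zero.2 (Ne.symm h4)
  have a3 : 1 - u * v ≠ 0 := sub_ne_zero.2 (Ne.symm h5)
  have a4 : 1 - v * u ≠ 0 := by rwa [mul_comm v u]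
  have eX : 1 - ((1 - v) / (1 - u * v)) = (v * (1 - u)) / ((1 - u * v)) := by first | ring1 | (field_simp; done) | (field_simp; ring1)
  have eL : 1 - (u * (1 - v) / (1 - u * v)) = ((1 - u)) / ((1 - u * v)) := by first | ring1 | (field_simp; done) | (field_simp; ring1)
  have eD : (1 - v) / (1 - u * v) - (u * (1 - v) / (1 - u * v)) = ((1 - v) * (1 - u)) / ((1 - u * v)) := by first | ring1 | (field_simp; done) | (field_simp; ring1)
  show (((u * (1 - v) / (1 - u * v))) / (((1 - v) / (1 - u * v))), ((1 - ((1 - v) / (1 - u * v)))) / ((1 - (u * (1 - v) / (1 - u * v))))) = (u, v)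
  try simp only [eX, eL, eD]
  all_goals refine Prod.ext ?_ ?_ <;> simp only <;> first | ring1 | (field_simp; done) | (field_simp; ring1)

theorem kap_kapInv (ν : Fin 15) {q : ℂ × ℂ} (hq : q ∈ U) : kap ν (kapInv ν q) = q := by
  obtain ⟨x, l⟩ := q
  obtain ⟨hx, h2, hl, h4, h5⟩ := hq
  simp only at hx h2 hl h4 h5
  have hX : 1 - x ≠ 0 := sub_ne_zero.2 (Ne.symm h2)
  have hL : 1 - l ≠ 0 := sub_ne_zero.2 (Ne.symm h4)
  have hD : x - l ≠ 0 := sub_ne_zero.2 h5
  fin_cases ν
  · have eU : 1 - (l) = (1 - l) := by first | ring1 | (field_simp; done) | (field_simp; ring1)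
    have eV : 1 - (((-((1 - x)))) / ((x - l))) = ((1 - l)) / ((x - l)) := by first | ring1 | (field_simp; done) | (field_simp; ring1)
    have eW : 1 - (l) * (((-((1 - x)))) / ((x - l))) = (x * (1 - l)) / ((x - l)) := by first | ring1 | (field_simp; done) | (field_simp; ring1)
    show ((1 - (l) * (((-((1 - x)))) / ((x - l)))) / (1 - (((-((1 - x)))) / ((x - l)))), (l)) = (x, l)
    try simp only [eU, eV, eW]
    all_goals refine Prod.ext ?_ ?_ <;> simp only <;> first | ring1 | (field_simp; done) | (field_simp; ring1)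
  · have eU : 1 - (l) = (1 - l) := by first | ring1 | (field_simp; done) | (field_simp; ring1)
    have eV : 1 - ((1) / (x)) = ((-((1 - x)))) / (x) := by first | ring1 | (field_simp; done) | (field_simp; ring1)
    have eW : 1 - (l) * ((1) / (x)) = ((x - l)) / (x) := by first | ring1 | (field_simp; done) | (field_simp; ring1)
    show (1 / ((1) / (x)), (l)) = (x, l)
    try simp only [eU, eV, eW]
    all_goals refine Prod.ext ?_ ?_ <;> simp only <;> first | ring1 | (field_simp; done) | (field_simp; ring1)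
  · have eU : 1 - ((x * (1 - l)) / ((x - l))) = ((-(l * (1 - x)))) / ((x - l)) := by first | ring1 | (field_simp; done) | (field_simp; ring1)
    have eV : 1 - ((1) / (x)) = ((-((1 - x)))) / (x) := by first | ring1 | (field_simp; done) | (field_simp; ring1)
    have eW : 1 - ((x * (1 - l)) / ((x - l))) * ((1) / (x)) = ((-((1 - x)))) / ((x - l)) := by first | ring1 | (field_simp; done) | (field_simp; ring1)
    show (1 / ((1) / (x)), (1 - ((x * (1 - l)) / ((x - l)))) / (1 - ((x * (1 - l)) / ((x - l))) * ((1) / (x)))) = (x, l)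
    try simp only [eU, eV, eW]
    all_goals refine Prod.ext ?_ ?_ <;> simp only <;> first | ring1 | (field_simp; done) | (field_simp; ring1)
  · have eU : 1 - ((x * (1 - l)) / ((x - l))) = ((-(l * (1 - x)))) / ((x - l)) := by first | ring1 | (field_simp; done) | (field_simp; ring1)
    have eV : 1 - (((x - l)) / (x)) = (l) / (x) := by first | ring1 | (field_simp; done) | (field_simp; ring1)
    have eW : 1 - ((x * (1 - l)) / ((x - l))) * (((x - l)) / (x)) = l := by first | ring1 | (field_simp; done) | (field_simp; ring1)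
    show ((1 - ((x * (1 - l)) / ((x - l))) * (((x - l)) / (x))) / (1 - (((x - l)) / (x))), 1 - ((x * (1 - l)) / ((x - l))) * (((x - l)) / (x))) = (x, l)
    try simp only [eU, eV, eW]
    all_goals refine Prod.ext ?_ ?_ <;> simp only <;> first | ring1 | (field_simp; done) | (field_simp; ring1)
  · have eU : 1 - (((-((1 - x)))) / ((x - l))) = ((1 - l)) / ((x - l)) := by first | ring1 | (field_simp; done) | (field_simp; ring1)
    have eV : 1 - (((x - l)) / (x)) = (l) / (x) := by first | ring1 | (field_simp; done) | (field_simp; ring1)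
    have eW : 1 - (((-((1 - x)))) / ((x - l))) * (((x - l)) / (x)) = (1) / (x) := by first | ring1 | (field_simp; done) | (field_simp; ring1)
    show (1 / (1 - (((-((1 - x)))) / ((x - l))) * (((x - l)) / (x))), (1 - (((x - l)) / (x))) / (1 - (((-((1 - x)))) / ((x - l))) * (((x - l)) / (x)))) = (x, l)
    try simp only [eU, eV, eW]
    all_goals refine Prod.ext ?_ ?_ <;> simp only <;> first | ring1 | (field_simp; done) | (field_simp; ring1)
  · have eU : 1 - ((l) / (x)) = ((x - l)) / (x) := by first | ring1 | (field_simp; done) | (field_simp; ring1)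
    have eV : 1 - (x) = (1 - x) := by first | ring1 | (field_simp; done) | (field_simp; ring1)
    have eW : 1 - ((l) / (x)) * (x) = (1 - l) := by first | ring1 | (field_simp; done) | (field_simp; ring1)
    show ((x), ((l) / (x)) * (x)) = (x, l)
    try simp only [eU, eV, eW]
    all_goals refine Prod.ext ?_ ?_ <;> simp only <;> first | ring1 | (field_simp; done) | (field_simp; ring1)
  · have eU : 1 - (((x - l)) / (x * (1 - l))) = (l * (1 - x)) / (x * (1 - l)) := by first | ring1 | (field_simp; done) | (field_simp; ring1)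
    have eV : 1 - (x) = (1 - x) := by first | ring1 | (field_simp; done) | (field_simp; ring1)
    have eW : 1 - (((x - l)) / (x * (1 - l))) * (x) = ((1 - x)) / ((1 - l)) := by first | ring1 | (field_simp; done) | (field_simp; ring1)
    show ((x), (x) * (1 - (((x - l)) / (x * (1 - l)))) / (1 - (((x - l)) / (x * (1 - l))) * (x))) = (x, l)
    try simp only [eU, eV, eW]
    all_goals refine Prod.ext ?_ ?_ <;> simp only <;> first | ring1 | (field_simp; done) | (field_simp; ring1)
  · have eU : 1 - (((x - l)) / (x * (1 - l))) = (l * (1 - x)) / (x * (1 - l)) := by first | ring1 | (field_simp; done) | (field_simp; ring1)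
    have eV : 1 - ((1 - l)) = l := by first | ring1 | (field_simp; done) | (field_simp; ring1)
    have eW : 1 - (((x - l)) / (x * (1 - l))) * ((1 - l)) = (l) / (x) := by first | ring1 | (field_simp; done) | (field_simp; ring1)
    show ((1 - ((1 - l))) / (1 - (((x - l)) / (x * (1 - l))) * ((1 - l))), 1 - ((1 - l))) = (x, l)
    try simp only [eU, eV, eW]
    all_goals refine Prod.ext ?_ ?_ <;> simp only <;> first | ring1 | (field_simp; done) | (field_simp; ring1)
  · have eU : 1 - ((x) / (l)) = ((-((x - l)))) / (l) := by first | ring1 | (field_simp; done) | (field_simp; ring1)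
    have eV : 1 - (((1 - l)) / ((1 - x))) = ((-((x - l)))) / ((1 - x)) := by first | ring1 | (field_simp; done) | (field_simp; ring1)
    have eW : 1 - ((x) / (l)) * (((1 - l)) / ((1 - x))) = ((-((x - l)))) / (l * (1 - x)) := by first | ring1 | (field_simp; done) | (field_simp; ring1)
    show (((x) / (l)) * (1 - (((1 - l)) / ((1 - x)))) / (1 - ((x) / (l)) * (((1 - l)) / ((1 - x)))), (1 - (((1 - l)) / ((1 - x)))) / (1 - ((x) / (l)) * (((1 - l)) / ((1 - x))))) = (x, l)
    try simp only [eU, eV, eW]
    all_goals refine Prod.ext ?_ ?_ <;> simp only <;> first | ring1 | (field_simp; done) | (field_simp; ring1)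
  · have eU : 1 - ((x) / (l)) = ((-((x - l)))) / (l) := by first | ring1 | (field_simp; done) | (field_simp; ring1)
    have eV : 1 - (l) = (1 - l) := by first | ring1 | (field_simp; done) | (field_simp; ring1)
    have eW : 1 - ((x) / (l)) * (l) = (1 - x) := by first | ring1 | (field_simp; done) | (field_simp; ring1)
    show (((x) / (l)) * (l), (l)) = (x, l)
    try simp only [eU, eV, eW]
    all_goals refine Prod.ext ?_ ?_ <;> simp only <;> first | ring1 | (field_simp; done) | (field_simp; ring1)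
  · have eU : 1 - (((-((x - l)))) / ((1 - x))) = ((1 - l)) / ((1 - x)) := by first | ring1 | (field_simp; done) | (field_simp; ring1)
    have eV : 1 - ((1) / (l)) = ((-((1 - l)))) / (l) := by first | ring1 | (field_simp; done) | (field_simp; ring1)
    have eW : 1 - (((-((x - l)))) / ((1 - x))) * ((1) / (l)) = (x * (1 - l)) / (l * (1 - x)) := by first | ring1 | (field_simp; done) | (field_simp; ring1)
    show ((1 - (((-((x - l)))) / ((1 - x))) * ((1) / (l))) / (((1) / (l)) * (1 - (((-((x - l)))) / ((1 - x))))), 1 / ((1) / (l))) = (x, l)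
    try simp only [eU, eV, eW]
    all_goals refine Prod.ext ?_ ?_ <;> simp only <;> first | ring1 | (field_simp; done) | (field_simp; ring1)
  · have eU : 1 - ((l) / (x)) = ((x - l)) / (x) := by first | ring1 | (field_simp; done) | (field_simp; ring1)
    have eV : 1 - ((1) / (l)) = ((-((1 - l)))) / (l) := by first | ring1 | (field_simp; done) | (field_simp; ring1)
    have eW : 1 - ((l) / (x)) * ((1) / (l)) = ((-((1 - x)))) / (x) := by first | ring1 | (field_simp; done) | (field_simp; ring1)
    show (1 / (((l) / (x)) * ((1) / (l))), 1 / ((1) / (l))) = (x, l)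
    try simp only [eU, eV, eW]
    all_goals refine Prod.ext ?_ ?_ <;> simp only <;> first | ring1 | (field_simp; done) | (field_simp; ring1)
  · have eU : 1 - ((x) / (l)) = ((-((x - l)))) / (l) := by first | ring1 | (field_simp; done) | (field_simp; ring1)
    have eV : 1 - ((1) / (x)) = ((-((1 - x)))) / (x) := by first | ring1 | (field_simp; done) | (field_simp; ring1)
    have eW : 1 - ((x) / (l)) * ((1) / (x)) = ((-((1 - l)))) / (l) := by first | ring1 | (field_simp; done) | (field_simp; ring1)
    show (1 / ((1) / (x)), 1 / (((x) / (l)) * ((1) / (x)))) = (x, l)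
    try simp only [eU, eV, eW]
    all_goals refine Prod.ext ?_ ?_ <;> simp only <;> first | ring1 | (field_simp; done) | (field_simp; ring1)
  · have eU : 1 - ((l * (1 - x)) / (x * (1 - l))) = ((x - l)) / (x * (1 - l)) := by first | ring1 | (field_simp; done) | (field_simp; ring1)
    have eV : 1 - ((x) / (l)) = ((-((x - l)))) / (l) := by first | ring1 | (field_simp; done) | (field_simp; ring1)
    have eW : 1 - ((l * (1 - x)) / (x * (1 - l))) * ((x) / (l)) = ((x - l)) / ((1 - l)) := by first | ring1 | (field_simp; done) | (field_simp; ring1)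
    show ((1 - ((l * (1 - x)) / (x * (1 - l))) * ((x) / (l))) / (1 - ((l * (1 - x)) / (x * (1 - l)))), (1 - ((l * (1 - x)) / (x * (1 - l))) * ((x) / (l))) / (((x) / (l)) * (1 - ((l * (1 - x)) / (x * (1 - l)))))) = (x, l)
    try simp only [eU, eV, eW]
    all_goals refine Prod.ext ?_ ?_ <;> simp only <;> first | ring1 | (field_simp; done) | (field_simp; ring1)
  · have eU : 1 - (x) = (1 - x) := by first | ring1 | (field_simp; done) | (field_simp; ring1)
    have eV : 1 - ((1) / (l)) = ((-((1 - l)))) / (l) := by first | ring1 | (field_simp; done) | (field_simp; ring1)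
    have eW : 1 - (x) * ((1) / (l)) = ((-((x - l)))) / (l) := by first | ring1 | (field_simp; done) | (field_simp; ring1)
    show ((x), 1 / ((1) / (l))) = (x, l)
    try simp only [eU, eV, eW]
    all_goals refine Prod.ext ?_ ?_ <;> simp only <;> first | ring1 | (field_simp; done) | (field_simp; ring1)

theorem kapX_kapXInv {q : ℂ × ℂ} (hq : q ∈ U) : kapX (kapXInv q) = q := by
  obtain ⟨x, l⟩ := q
  obtain ⟨hx, h2, hl, h4, h5⟩ := hq
  simp only at hx h2 hl h4 h5
  have hX : 1 - x ≠ 0 := sub_ne_zero.2 (Ne.symm h2)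
  have hL : 1 - l ≠ 0 := sub_ne_zero.2 (Ne.symm h4)
  have hD : x - l ≠ 0 := sub_ne_zero.2 h5
  have eU : 1 - ((l) / (x)) = ((x - l)) / (x) := by first | ring1 | (field_simp; done) | (field_simp; ring1)
  have eV : 1 - (((1 - x)) / ((1 - l))) = ((x - l)) / ((1 - l)) := by first | ring1 | (field_simp; done) | (field_simp; ring1)
  have eW : 1 - ((l) / (x)) * (((1 - x)) / ((1 - l))) = ((x - l)) / (x * (1 - l)) := by first | ring1 | (field_simp; done) | (field_simp; ring1)
  show ((1 - (((1 - x)) / ((1 - l)))) / (1 - ((l) / (x)) * (((1 - x)) / ((1 - l)))), ((l) / (x)) * (1 - (((1 - x)) / ((1 - l)))) / (1 - ((l) / (x)) * (((1 - x)) / ((1 - l))))) = (x, l)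
  try simp only [eU, eV, eW]
  all_goals refine Prod.ext ?_ ?_ <;> simp only <;> first | ring1 | (field_simp; done) | (field_simp; ring1)

theorem bijOn_kap (ν : Fin 15) : BijOn (kap ν) W U :=
  ⟨fun _ hw => kap_mem ν hw,
   fun _ hw _ hw' h => by rw [← kapInv_kap ν hw, ← kapInv_kap ν hw', h],
   fun q hq => ⟨kapInv ν q, kapInv_mem ν hq, kap_kapInv ν hq⟩⟩

theorem isOpen_U : IsOpen U := by
  have : U = {z : ℂ × ℂ | z.1 ≠ 0} ∩ {z | z.1 ≠ 1} ∩ {z | z.2 ≠ 0} ∩ {z | z.2 ≠ 1} ∩
      {z | z.1 ≠ z.2} := by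
    ext z; constructor
    · rintro ⟨a, b, c, d, e⟩; exact ⟨⟨⟨⟨a, b⟩, c⟩, d⟩, e⟩
    · rintro ⟨⟨⟨⟨a, b⟩, c⟩, d⟩, e⟩; exact ⟨a, b, c, d, e⟩
  rw [this]
  exact ((((isOpen_ne_fun continuous_fst continuous_const).inter
    (isOpen_ne_fun continuous_fst continuous_const)).inter
    (isOpen_ne_fun continuous_snd continuous_const)).inter
    (isOpen_ne_fun continuous_snd continuous_const)).inter
    (isOpen_ne_fun continuous_fst continuous_snd)

theorem isOpen_W : IsOpen W := by
  have : W = {z : ℂ × ℂ | z.1 ≠ 0} ∩ {z | z.2 ≠ 0} ∩ {z | z.1 ≠ 1} ∩ {z | z.2 ≠ 1} ∩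
      {z | z.1 * z.2 ≠ 1} := by
    ext z; constructor
    · rintro ⟨a, b, c, d, e⟩; exact ⟨⟨⟨⟨a, b⟩, c⟩, d⟩, e⟩
    · rintro ⟨⟨⟨⟨a, b⟩, c⟩, d⟩, e⟩; exact ⟨a, b, c, d, e⟩
  rw [this]
  exact ((((isOpen_ne_fun continuous_fst continuous_const).inter
    (isOpen_ne_fun continuous_snd continuous_const)).inter
    (isOpen_ne_fun continuous_fst continuous_const)).inter
    (isOpen_ne_fun continuous_snd continuous_const)).inter
    (isOpen_ne_fun (continuous_fst.mul continuous_snd) continuous_const)

theorem bijOn_kapX : BijOn kapX W U :=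
  ⟨fun _ hw => kapX_mem hw,
   fun _ hw _ hw' h => by rw [← kapXInv_kapX hw, ← kapXInv_kapX hw', h],
   fun q hq => ⟨kapXInv q, kapXInv_mem hq, kapX_kapXInv hq⟩⟩

theorem analyticAt_kap (ν : Fin 15) {w : ℂ × ℂ} (hw : w ∈ W) : AnalyticAt ℂ (kap ν) w := by
  obtain ⟨h1, h2, h3, h4, h5⟩ := hw
  have a1 : 1 - w.1 ≠ 0 := sub_ne_zero.2 (Ne.symm h3)
  have a2 : 1 - w.2 ≠ 0 := sub_ne_zero.2 (Ne.symm h4)
  have a3 : 1 - w.1 * w.2 ≠ 0 := sub_ne_zero.2 (Ne.symm h5)
  have u : AnalyticAt ℂ (fun w : ℂ × ℂ => w.1) w := analyticAt_fst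
  have v : AnalyticAt ℂ (fun w : ℂ × ℂ => w.2) w := analyticAt_snd
  have c : AnalyticAt ℂ (fun _ : ℂ × ℂ => (1 : ℂ)) w := analyticAt_const
  have U1 := c.sub u
  have V1 := c.sub v
  have W1 := c.sub (u.mul v)
  fin_cases ν
  · exact AnalyticAt.prod (W1.div V1 a2) u
  · exact AnalyticAt.prod (c.div v h2) u
  · exact AnalyticAt.prod (c.div v h2) (U1.div W1 a3)
  · exact AnalyticAt.prod (W1.div V1 a2) W1
  · exact AnalyticAt.prod (c.div W1 a3) (V1.div W1 a3)
  · exact AnalyticAt.prod v (u.mul v)
  · exact AnalyticAt.prod v ((v.mul U1).div W1 a3)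
  · exact AnalyticAt.prod (V1.div W1 a3) V1
  · exact AnalyticAt.prod ((u.mul V1).div W1 a3) (V1.div W1 a3)
  · exact AnalyticAt.prod (u.mul v) v
  · exact AnalyticAt.prod (W1.div (v.mul U1) (mul_ne_zero h2 a1)) (c.div v h2)
  · exact AnalyticAt.prod (c.div (u.mul v) (mul_ne_zero h1 h2)) (c.div v h2)
  · exact AnalyticAt.prod (c.div v h2) (c.div (u.mul v) (mul_ne_zero h1 h2))
  · exact AnalyticAt.prod (W1.div U1 a1) (W1.div (v.mul U1) (mul_ne_zero h2 a1))
  · exact AnalyticAt.prod u (c.div v h2)

theorem analyticAt_kapX {w : ℂ × ℂ} (hw : w ∈ W) : AnalyticAt ℂ kapX w := by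
  obtain ⟨h1, h2, h3, h4, h5⟩ := hw
  have a1 : 1 - w.1 ≠ 0 := sub_ne_zero.2 (Ne.symm h3)
  have a2 : 1 - w.2 ≠ 0 := sub_ne_zero.2 (Ne.symm h4)
  have a3 : 1 - w.1 * w.2 ≠ 0 := sub_ne_zero.2 (Ne.symm h5)
  have u : AnalyticAt ℂ (fun w : ℂ × ℂ => w.1) w := analyticAt_fst
  have v : AnalyticAt ℂ (fun w : ℂ × ℂ => w.2) w := analyticAt_snd
  have c : AnalyticAt ℂ (fun _ : ℂ × ℂ => (1 : ℂ)) w := analyticAt_const
  have U1 := c.sub u
  have V1 := c.sub v
  have W1 := c.sub (u.mul v)
  exact AnalyticAt.prod (V1.div W1 a3) ((u.mul V1).div W1 a3)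

theorem analyticAt_kapInv (ν : Fin 15) {q : ℂ × ℂ} (hq : q ∈ U) : AnalyticAt ℂ (kapInv ν) q := by
  obtain ⟨hx, h2, hl, h4, h5⟩ := hq
  have hX : 1 - q.1 ≠ 0 := sub_ne_zero.2 (Ne.symm h2)
  have hL : 1 - q.2 ≠ 0 := sub_ne_zero.2 (Ne.symm h4)
  have hD : q.1 - q.2 ≠ 0 := sub_ne_zero.2 h5
  have x : AnalyticAt ℂ (fun w : ℂ × ℂ => w.1) q := analyticAt_fst
  have l : AnalyticAt ℂ (fun w : ℂ × ℂ => w.2) q := analyticAt_snd
  have c : AnalyticAt ℂ (fun _ : ℂ × ℂ => (1 : ℂ)) q := analyticAt_const
  have X := c.sub x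
  have L := c.sub l
  have D := x.sub l
  fin_cases ν
  · exact AnalyticAt.prod l ((X.neg).div D hD)
  · exact AnalyticAt.prod l (c.div x hx)
  · exact AnalyticAt.prod ((x.mul L).div D hD) (c.div x hx)
  · exact AnalyticAt.prod ((x.mul L).div D hD) (D.div x hx)
  · exact AnalyticAt.prod ((X.neg).div D hD) (D.div x hx)
  · exact AnalyticAt.prod (l.div x hx) x
  · exact AnalyticAt.prod (D.div (x.mul L) (mul_ne_zero hx hL)) x
  · exact AnalyticAt.prod (D.div (x.mul L) (mul_ne_zero hx hL)) L
  · exact AnalyticAt.prod (x.div l hl) (L.div X hX)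
  · exact AnalyticAt.prod (x.div l hl) l
  · exact AnalyticAt.prod ((D.neg).div X hX) (c.div l hl)
  · exact AnalyticAt.prod (l.div x hx) (c.div l hl)
  · exact AnalyticAt.prod (x.div l hl) (c.div x hx)
  · exact AnalyticAt.prod ((l.mul X).div (x.mul L) (mul_ne_zero hx hL)) (x.div l hl)
  · exact AnalyticAt.prod x (c.div l hl)

theorem analyticAt_kapXInv {q : ℂ × ℂ} (hq : q ∈ U) : AnalyticAt ℂ kapXInv q := by
  obtain ⟨hx, h2, hl, h4, h5⟩ := hq
  have hX : 1 - q.1 ≠ 0 := sub_ne_zero.2 (Ne.symm h2)
  have hL : 1 - q.2 ≠ 0 := sub_ne_zero.2 (Ne.symm h4)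
  have hD : q.1 - q.2 ≠ 0 := sub_ne_zero.2 h5
  have x : AnalyticAt ℂ (fun w : ℂ × ℂ => w.1) q := analyticAt_fst
  have l : AnalyticAt ℂ (fun w : ℂ × ℂ => w.2) q := analyticAt_snd
  have c : AnalyticAt ℂ (fun _ : ℂ × ℂ => (1 : ℂ)) q := analyticAt_const
  have X := c.sub x
  have L := c.sub l
  have D := x.sub l
  exact AnalyticAt.prod (l.div x hx) (X.div L hL)

theorem mem_W_of_mem_R {w : ℂ × ℂ} (hw : w ∈ R) (h1 : w.1 ≠ 0) (h2 : w.2 ≠ 0) : w ∈ W := by
  obtain ⟨a, b, c⟩ := hw 1 le_rfl
  exact ⟨h1, h2, by simpa using a, by simpa using b, by simpa using c⟩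

theorem exp_mem_W {z : ℂ × ℂ} (hz : z ∈ Rt) : (exp z.1, exp z.2) ∈ W :=
  mem_W_of_mem_R hz (exp_ne_zero _) (exp_ne_zero _)

theorem mem_R_iff {w : ℂ × ℂ} : w ∈ R ↔ 1 - w.1 ∈ slitPlane ∧ 1 - w.2 ∈ slitPlane ∧
    1 - w.1 * w.2 ∈ slitPlane := by
  have key : ∀ z : ℂ, (1 - z ∈ slitPlane) ↔ ∀ t : ℝ, 1 ≤ t → z ≠ t := by
    intro z
    rw [mem_slitPlane_iff]
    constructor
    · rintro h t ht rfl
      simp only [sub_re, one_re, ofReal_re, sub_im, one_im, ofReal_im, sub_self, ne_eq,
        not_true_eq_false, or_false] at h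
      linarith
    · intro h
      by_contra hc
      push Not at hc
      obtain ⟨h1, h2⟩ := hc
      simp only [sub_re, one_re, sub_im, one_im, zero_sub, neg_eq_zero] at h1 h2
      exact h z.re (by linarith) (Complex.ext (by simp) (by simp [h2]))
  rw [key, key, key]
  constructor
  · intro h; exact ⟨fun t ht => (h t ht).1, fun t ht => (h t ht).2.1, fun t ht => (h t ht).2.2⟩
  · rintro ⟨a, b, c⟩ t ht; exact ⟨a t ht, b t ht, c t ht⟩

theorem isOpen_R : IsOpen R := by
  have : R = {w : ℂ × ℂ | 1 - w.1 ∈ slitPlane} ∩ {w | 1 - w.2 ∈ slitPlane} ∩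
      {w | 1 - w.1 * w.2 ∈ slitPlane} := by
    ext w
    show w ∈ R ↔ _
    rw [mem_R_iff]
    exact ⟨fun ⟨a, b, c⟩ => ⟨⟨a, b⟩, c⟩, fun ⟨⟨a, b⟩, c⟩ => ⟨a, b, c⟩⟩
  rw [this]
  exact ((isOpen_slitPlane.preimage (continuous_const.sub continuous_fst)).inter
    (isOpen_slitPlane.preimage (continuous_const.sub continuous_snd))).inter
    (isOpen_slitPlane.preimage (continuous_const.sub (continuous_fst.mul continuous_snd)))

theorem isOpen_Rt : IsOpen Rt :=
  isOpen_R.preimage ((continuous_exp.comp continuous_fst).prodMk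
    (continuous_exp.comp continuous_snd))

end Vale.Agent.P300.Spec
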