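import Vale.Agent.P300.TOR.Lift
import Vale.Agent.P300.TOR.Conn
import Vale.Agent.P300.H198.TorExt
import Vale.Agent.P300.H251.Conj
import Vale.Agent.P300.H753.Fin
import Vale.Agent.P300.H921.Mod
import Vale.Agent.P300.Spec.Kap142

/-!
# P300: the exact output of NODE, and its translation to helper753's `Node` (helper210)

`kapE ν` is the chart number `ν : Fin 16` (`15` = `kapX`), `cham ν` its base chamber,
`wa ν`, `wb ν` the monodromies of the `u`-loop and of the `v`-loop (helper142, helper251).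
`NodeSpec r`: lifts over the sixteen regions for all `G`-sets.
-/

open Set Topology Filter Complex

namespace Vale.Agent.P300.Spec

open Vale.Agent.P300

variable {G : Type} [Group G]

/-- helper37's structure as helper148's. -/
def toA (r : TOR.Arr G) : Tor.Arr G where
  c1 := r.c1
  c2 := r.c2
  c3 := r.c3
  T0 := r.T0
  T1 := r.T1
  r01 := r.h01
  r02 := r.h02
  r03 := by rw [r.h03, mul_inv_cancel_right]
  r11 := by rw [r.h11, mul_inv_cancel_right]
  r12 := r.h12
  r13 := r.h13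

/-- The sixteen charts. -/
noncomputable def kapE (ν : Fin 16) : ℂ × ℂ → ℂ × ℂ :=
  if h : ν.val < 15 then H142.kap ⟨ν.val, h⟩ else H142.kapX

theorem kapE_castSucc (ν : Fin 15) : kapE ν.castSucc = H142.kap ν := by
  simp [kapE]

theorem kapE_last : kapE 15 = H142.kapX := by
  simp [kapE]

theorem kapE_cases {P : (ℂ × ℂ → ℂ × ℂ) → Prop} (h : ∀ ν, P (H142.kap ν)) (hX : P H142.kapX)
    (ν : Fin 16) : P (kapE ν) := by
  unfold kapE
  split_ifs
  · exact h _
  · exact hX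

/-- The base chambers of the sixteen charts (`L` = strip of `λ`, `X` = strip of `x`, `s` = `x > λ`):
`κ_ν` maps `(0,1)²` into the real chamber `cham ν`. -/
def cham : Fin 16 → TOR.Ch
  | 0 | 1 | 2 | 3 | 4 => ⟨1, 2, true, by decide, by decide⟩
  | 5 | 6 | 7 => ⟨1, 1, true, by decide, by decide⟩
  | 8 | 9 => ⟨1, 1, false, by decide, by decide⟩
  | 10 | 11 => ⟨2, 2, true, by decide, by decide⟩
  | 12 | 13 => ⟨2, 2, false, by decide, by decide⟩
  | 14 => ⟨2, 1, false, by decide, by decide⟩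
  | _ => ⟨1, 1, true, by decide, by decide⟩

/-- **Output of NODE for one chart.**  Lifts over `Rt` of `z ↦ κ (e^z₁, e^z₂)` to all the coverings
`r.Tot S`, with monodromies `a`, `b`, normalised over the base chamber `C`. -/
structure NodeLifts (r : TOR.Arr G) (κ : ℂ × ℂ → ℂ × ℂ) (C : TOR.Ch) (a b : G) where
  /-- the lift -/
  L : (S : Type) → [MulAction G S] → [TopologicalSpace S] → [DiscreteTopology S] →
    ℂ × ℂ → S → r.Tot S
  cont : ∀ (S : Type) [MulAction G S] [TopologicalSpace S] [DiscreteTopology S] (s : S),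
    ContinuousOn (fun z => L S z s) H142.Rt
  pr : ∀ (S : Type) [MulAction G S] [TopologicalSpace S] [DiscreteTopology S] (s : S),
    ∀ z ∈ H142.Rt, ((r.pr (L S z s) : TOR.Arr.UT) : ℂ × ℂ) = κ (exp z.1, exp z.2)
  inj : ∀ (S : Type) [MulAction G S] [TopologicalSpace S] [DiscreteTopology S],
    ∀ z ∈ H142.Rt, Function.Injective (L S z)
  surj : ∀ (S : Type) [MulAction G S] [TopologicalSpace S] [DiscreteTopology S],
    ∀ z ∈ H142.Rt, ∀ y : r.Tot S, ((r.pr y : TOR.Arr.UT) : ℂ × ℂ) = κ (exp z.1, exp z.2) →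
      ∃ s, L S z s = y
  u : ∀ (S : Type) [MulAction G S] [TopologicalSpace S] [DiscreteTopology S] (s : S),
    ∀ z ∈ H142.Rt, L S (z.1 + 2 * Real.pi * I, z.2) s = L S z (a • s)
  v : ∀ (S : Type) [MulAction G S] [TopologicalSpace S] [DiscreteTopology S] (s : S),
    ∀ z ∈ H142.Rt, L S (z.1, z.2 + 2 * Real.pi * I) s = L S z (b • s)
  map : ∀ (S S' : Type) [MulAction G S] [TopologicalSpace S] [DiscreteTopology S]
    [MulAction G S'] [TopologicalSpace S'] [DiscreteTopology S'] (φ : S → S'),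
    (∀ (g : G) (s : S), φ (g • s) = g • φ s) → ∀ z ∈ H142.Rt, ∀ s : S,
      r.map φ (L S z s) = L S' z (φ s)
  base : ∀ (S : Type) [MulAction G S] [TopologicalSpace S] [DiscreteTopology S] (s : S)
    (x y : ℝ), x < 0 → y < 0 →
      κ (exp x, exp y) ∈ C.A ∧ r.crd C (L S ((x : ℂ), (y : ℂ)) s) = s

/-- **NODE** (owner helper150): for every group with the five elements, lifts for the sixteen
charts with the words of helper142 / helper251. -/
def NodeSpec (r : TOR.Arr G) : Prop :=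
  ∀ ν : Fin 16, Nonempty (NodeLifts r (kapE ν) (cham ν) ((toA r).wa ν) ((toA r).wb ν))

/-- `κ` as a map to `UT` (a junk value outside `W`). -/
noncomputable def toUT (κ : ℂ × ℂ → ℂ × ℂ) (h : ∀ w ∈ H142.W, κ w ∈ H142.U) (w : ℂ × ℂ) :
    TOR.Arr.UT := by
  classical
  exact if hw : w ∈ H142.W then ⟨κ w, h w hw⟩ else ⟨(2, 3), by
    show ((2 : ℂ) ≠ 0 ∧ (2 : ℂ) ≠ 1 ∧ (3 : ℂ) ≠ 0 ∧ (3 : ℂ) ≠ 1 ∧ (2 : ℂ) ≠ 3)
    norm_num⟩

theorem toUT_coe {κ : ℂ × ℂ → ℂ × ℂ} {h : ∀ w ∈ H142.W, κ w ∈ H142.U} {w : ℂ × ℂ}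
    (hw : w ∈ H142.W) : ((toUT κ h w : TOR.Arr.UT) : ℂ × ℂ) = κ w := by
  simp [toUT, hw]

theorem Rp_subset_W : H753.Rp H142.R ⊆ H142.W := fun _ hw => mem_W_of_mem_R hw.1 hw.2.1 hw.2.2

theorem NodeLifts.node {r : TOR.Arr G} {κ : ℂ × ℂ → ℂ × ℂ} {C : TOR.Ch} {a b : G}
    (N : NodeLifts r κ C a b) (hκ : ∀ w ∈ H142.W, κ w ∈ H142.U) (hinj : InjOn κ H142.W)
    (hopen : ∀ V ⊆ H142.W, IsOpen V → IsOpen (κ '' V)) (hab : Commute a b)
    (S : Type) [MulAction G S] [TopologicalSpace S] [DiscreteTopology S] :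
    H753.Node H142.R (r.pr : r.Tot S → TOR.Arr.UT) (toUT κ hκ)
      (MulAction.toPermHom G S a) (MulAction.toPermHom G S b) (fun z w s => N.L S (z, w) s) where
  opR := isOpen_R
  kinj := by
    intro w hw w' hw' h
    refine hinj (Rp_subset_W hw) (Rp_subset_W hw') ?_
    rw [← toUT_coe (h := hκ) (Rp_subset_W hw), ← toUT_coe (h := hκ) (Rp_subset_W hw'), h]
  kopen := by
    intro V hV hVo
    have h1 := hopen V (hV.trans Rp_subset_W) hVo
    have : toUT κ hκ '' V = (Subtype.val : TOR.Arr.UT → ℂ × ℂ) ⁻¹' (κ '' V) := by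
      ext z
      constructor
      · rintro ⟨w, hw, rfl⟩
        exact ⟨w, hw, (toUT_coe (Rp_subset_W (hV hw))).symm⟩
      · rintro ⟨w, hw, h⟩
        exact ⟨w, hw, Subtype.ext ((toUT_coe (Rp_subset_W (hV hw))).trans h)⟩
    rw [this]
    exact h1.preimage continuous_subtype_val
  loc := r.isCoveringMap_pr.isLocalHomeomorph
  comm := hab.map _
  Lcont := fun s => N.cont S s
  Lpr := by
    intro z hz s
    refine Subtype.ext ?_
    rw [toUT_coe (exp_mem_W hz)]
    exact N.pr S s z hz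
  La := fun z hz s => N.u S s z hz
  Lb := fun z hz s => N.v S s z hz
  Linj := fun z hz => N.inj S z hz
  Lsurj := by
    intro z hz y hy
    refine N.surj S z hz y ?_
    rw [hy, toUT_coe (exp_mem_W hz)]

theorem isOpen_image_aux {κ κ' : ℂ × ℂ → ℂ × ℂ} (h1 : ∀ w ∈ H142.W, κ w ∈ H142.U)
    (h3 : ∀ w ∈ H142.W, κ' (κ w) = w)
    (h4 : ∀ q ∈ H142.U, κ (κ' q) = q) (h5 : ContinuousOn κ' H142.U) {V : Set (ℂ × ℂ)}
    (hV : V ⊆ H142.W) (hVo : IsOpen V) : IsOpen (κ '' V) := by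
  have : κ '' V = H142.U ∩ κ' ⁻¹' V := by
    ext q
    constructor
    · rintro ⟨w, hw, rfl⟩
      exact ⟨h1 w (hV hw), by rw [mem_preimage, h3 w (hV hw)]; exact hw⟩
    · rintro ⟨hq, hq'⟩
      exact ⟨κ' q, hq', h4 q hq⟩
  rw [this]
  exact h5.isOpen_inter_preimage isOpen_U hVo

theorem kapE_mem (ν : Fin 16) : ∀ w ∈ H142.W, kapE ν w ∈ H142.U :=
  kapE_cases (P := fun κ => ∀ w ∈ H142.W, κ w ∈ H142.U) (fun ν _ hw => kap_mem ν hw)
    (fun _ hw => kapX_mem hw) ν

theorem kapE_injOn (ν : Fin 16) : InjOn (kapE ν) H142.W :=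
  kapE_cases (P := fun κ => InjOn κ H142.W) (fun ν => (bijOn_kap ν).injOn) bijOn_kapX.injOn ν

theorem kapE_isOpen_image (ν : Fin 16) : ∀ V ⊆ H142.W, IsOpen V → IsOpen (kapE ν '' V) :=
  kapE_cases (P := fun κ => ∀ V ⊆ H142.W, IsOpen V → IsOpen (κ '' V))
    (fun ν _ hV hVo => isOpen_image_aux (fun _ h => kap_mem ν h) (fun _ h => kapInv_kap ν h)
      (fun _ h => kap_kapInv ν h)
      (fun _ hq => (analyticAt_kapInv ν hq).continuousAt.continuousWithinAt) hV hVo)
    (fun _ hV hVo => isOpen_image_aux (fun _ h => kapX_mem h) (fun _ h => kapXInv_kapX h)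
      (fun _ h => kapX_kapXInv h)
      (fun _ hq => (analyticAt_kapXInv hq).continuousAt.continuousWithinAt) hV hVo) ν

theorem kapE_analyticAt (ν : Fin 16) : ∀ w ∈ H142.W, AnalyticAt ℂ (kapE ν) w :=
  kapE_cases (P := fun κ => ∀ w ∈ H142.W, AnalyticAt ℂ κ w) (fun ν _ h => analyticAt_kap ν h)
    (fun _ h => analyticAt_kapX h) ν

/-- The chart `ν` with values in `UT`. -/
noncomputable def kapU (ν : Fin 16) : ℂ × ℂ → TOR.Arr.UT := toUT (kapE ν) (kapE_mem ν)

theorem kapU_coe (ν : Fin 16) {w : ℂ × ℂ} (hw : w ∈ H142.W) :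
    ((kapU ν w : TOR.Arr.UT) : ℂ × ℂ) = kapE ν w := toUT_coe hw

/-- The lifts chosen from `NodeSpec`. -/
noncomputable def lifts {r : TOR.Arr G} (h : NodeSpec r) (ν : Fin 16) :
    NodeLifts r (kapE ν) (cham ν) ((toA r).wa ν) ((toA r).wb ν) := (h ν).some

/-- The function `L ν` in helper753's / helper921's form. -/
noncomputable def LL {r : TOR.Arr G} (h : NodeSpec r) (S : Type) [MulAction G S]
    [TopologicalSpace S] [DiscreteTopology S] (ν : Fin 16) (z w : ℂ) (s : S) : r.Tot S :=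
  (lifts h ν).L S (z, w) s

/-- `NodeSpec` gives helper753's `Node` for all the sixteen charts and all the `G`-sets. -/
theorem node {r : TOR.Arr G} (h : NodeSpec r) (S : Type) [MulAction G S]
    [TopologicalSpace S] [DiscreteTopology S] (ν : Fin 16) :
    H753.Node H142.R (r.pr : r.Tot S → TOR.Arr.UT) (kapU ν)
      (MulAction.toPermHom G S ((toA r).wa ν)) (MulAction.toPermHom G S ((toA r).wb ν))
      (LL h S ν) :=
  (lifts h ν).node (kapE_mem ν) (kapE_injOn ν) (kapE_isOpen_image ν) (Tor.Arr.w_comm (toA r) ν) S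

/-- helper921's `Lifts` for the fifteen charts of the atlas, from the local orders. -/
noncomputable def modLifts {r : TOR.Arr G} (h : NodeSpec r) (S : Type) [MulAction G S]
    [TopologicalSpace S] [DiscreteTopology S] (p q : Fin 15 → S → ℕ)
    (ord : ∀ ν s, H753.Ord (MulAction.toPermHom G S ((toA r).wa ν.castSucc))
      (MulAction.toPermHom G S ((toA r).wb ν.castSucc)) s (p ν s) (q ν s)) :
    Mod.Lifts H142.R (fun ν : Fin 15 => kapU ν.castSucc) (r.pr : r.Tot S → TOR.Arr.UT) S where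
  a ν := MulAction.toPermHom G S ((toA r).wa ν.castSucc)
  b ν := MulAction.toPermHom G S ((toA r).wb ν.castSucc)
  L ν := LL h S ν.castSucc
  p := p
  q := q
  node ν := node h S ν.castSucc
  ord := ord

end Vale.Agent.P300.Spec
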