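import Vale.Agent.P300.Spec.Geo
import Vale.Agent.P300.H921.TorMod

/-!
# P300: `Spec.kapU` against `Mod.kapU` (helper210)

Both are the chart `ν` with values in the type `U`; they agree on `W` (in particular on `Rp R`) and
may differ by junk values outside.  `Mod.Lifts.congrKap` changes the chart; `modLiftsU` is
`modLifts` with `Mod.kapU`, as needed with helper242's `yData` and helper749's `cpxF`.
-/

open Set Topology Filter Complex

namespace Vale.Agent.P300.H753

variable {R : Set (ℂ × ℂ)} {US U S : Type*} [TopologicalSpace US] [TopologicalSpace U]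
  {pr : US → U} {kap kap' : ℂ × ℂ → U} {a b : Equiv.Perm S} {L : ℂ → ℂ → S → US}

theorem exp_mem_Rp_of_Rt {z : ℂ × ℂ} (hz : z ∈ Rt R) : (exp z.1, exp z.2) ∈ Rp R :=
  ⟨hz, exp_ne_zero _, exp_ne_zero _⟩

/-- Only the values of the chart on the punctured region matter. -/
theorem Node.congrKap (N : Node R pr kap a b L) (h : ∀ w ∈ Rp R, kap w = kap' w) :
    Node R pr kap' a b L where
  opR := N.opR
  kinj := N.kinj.congr h
  kopen V hV hVo := by
    have : kap' '' V = kap '' V := image_congr fun w hw => (h w (hV hw)).symm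
    rw [this]
    exact N.kopen V hV hVo
  loc := N.loc
  comm := N.comm
  Lcont := N.Lcont
  Lpr z hz s := (N.Lpr z hz s).trans (h _ (exp_mem_Rp_of_Rt hz))
  La := N.La
  Lb := N.Lb
  Linj := N.Linj
  Lsurj z hz y hy := N.Lsurj z hz y (hy.trans (h _ (exp_mem_Rp_of_Rt hz)).symm)

end Vale.Agent.P300.H753

namespace Vale.Agent.P300.Mod

/-- Only the values of the charts on the punctured region matter. -/
noncomputable def Lifts.congrKap {R : Set (ℂ × ℂ)} {ι U X0 S : Type} [TopologicalSpace X0]
    [TopologicalSpace U] {kap kap' : ι → ℂ × ℂ → U} {pr : X0 → U} (D : Lifts R kap pr S)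
    (h : ∀ ν, ∀ w ∈ H753.Rp R, kap ν w = kap' ν w) : Lifts R kap' pr S where
  a := D.a
  b := D.b
  L := D.L
  p := D.p
  q := D.q
  node ν := (D.node ν).congrKap (h ν)
  ord := D.ord

end Vale.Agent.P300.Mod

namespace Vale.Agent.P300.Spec

variable {G : Type} [Group G]

theorem kapU_castSucc (ν : Fin 15) {w : ℂ × ℂ} (hw : w ∈ H142.W) :
    kapU ν.castSucc w = Mod.kapU ν w := by
  apply Subtype.ext
  rw [kapU_coe _ hw, kapE_castSucc]
  exact (Mod.kapU_val hw).symm

theorem kapU_castSucc' (ν : Fin 15) {w : ℂ × ℂ} (hw : w ∈ H753.Rp H142.R) :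
    kapU ν.castSucc w = Mod.kapU ν w := kapU_castSucc ν (Rp_subset_W hw)

/-- helper921's `Lifts` for the fifteen charts `Mod.kapU`, from the local orders. -/
noncomputable def modLiftsU {r : TOR.Arr G} (h : NodeSpec r) (S : Type) [MulAction G S]
    [TopologicalSpace S] [DiscreteTopology S] (p q : Fin 15 → S → ℕ)
    (ord : ∀ ν s, H753.Ord (MulAction.toPermHom G S ((toA r).wa ν.castSucc))
      (MulAction.toPermHom G S ((toA r).wb ν.castSucc)) s (p ν s) (q ν s)) :
    Mod.Lifts H142.R Mod.kapU (r.pr : r.Tot S → H142.U) S :=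
  (modLifts h S p q ord).congrKap fun ν _ hw => kapU_castSucc' ν hw

end Vale.Agent.P300.Spec
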